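import Mathlib.Analysis.Real.Sqrt
import Mathlib.Data.Int.Interval
import Mathlib.Algebra.Order.BigOperators.Group.Finset
import Mathlib.Algebra.BigOperators.Ring.Finset
import Mathlib.Algebra.Order.Floor.Ring
import Mathlib.Order.Interval.Finset.Nat
import Mathlib.Tactic

/-! Block (I), step STRIP: a window of a path all of whose differences are popular modulo one of the
blocks lies in a thin strip. -/

namespace Vale.Agent.P015.H518

open Finset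

/-- residue of a point modulo the lattice of `M` -/
def res (R : ℤ) (M : ℕ) (z : ℤ × ℤ) : ℤ := (z.1 + R * z.2) % M

/-- sup norm -/
def sd (z : ℤ × ℤ) : ℤ := max |z.1| |z.2|

/-- integral cross product -/
def cr (v w : ℤ × ℤ) : ℤ := v.1 * w.2 - v.2 * w.1

/-- squared length -/
def nm (v : ℤ × ℤ) : ℤ := v.1 ^ 2 + v.2 ^ 2

/-- distinct points of one class are far apart -/
theorem res_sep {R : ℤ} {M : ℕ} (hM : (M : ℤ) ∣ R ^ 2 + 1) {x y : ℤ × ℤ} (hxy : x ≠ y)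
    (h : res R M x = res R M y) : (M : ℤ) ≤ (x.1 - y.1) ^ 2 + (x.2 - y.2) ^ 2 := by
  have h1 : (M : ℤ) ∣ (x.1 + R * x.2) - (y.1 + R * y.2) :=
    Int.ModEq.dvd (Int.ModEq.symm h)
  have h2 : (M : ℤ) ∣ (x.1 - y.1) ^ 2 + (x.2 - y.2) ^ 2 := by
    obtain ⟨a, ha⟩ := h1
    obtain ⟨b, hb⟩ := hM
    refine ⟨a * ((x.1 - y.1) - R * (x.2 - y.2)) + b * (x.2 - y.2) ^ 2, ?_⟩
    have h3 : (x.1 - y.1) = M * a - R * (x.2 - y.2) := by linarith
    calc (x.1 - y.1) ^ 2 + (x.2 - y.2) ^ 2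
        = ((x.1 - y.1) + R * (x.2 - y.2)) * ((x.1 - y.1) - R * (x.2 - y.2))
          + (R ^ 2 + 1) * (x.2 - y.2) ^ 2 := by ring
      _ = (M * a) * ((x.1 - y.1) - R * (x.2 - y.2)) + (M * b) * (x.2 - y.2) ^ 2 := by
          rw [hb]; congr 1; congr 1; linarith
      _ = _ := by ring
  have h4 : 0 < (x.1 - y.1) ^ 2 + (x.2 - y.2) ^ 2 := by
    rcases ne_or_eq x.1 y.1 with h5 | h5
    · have : 0 < (x.1 - y.1) ^ 2 := by
        have := sub_ne_zero.2 h5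
        positivity
      nlinarith [sq_nonneg (x.2 - y.2)]
    · have h6 : x.2 ≠ y.2 := fun h7 => hxy (Prod.ext h5 h7)
      have : 0 < (x.2 - y.2) ^ 2 := by
        have := sub_ne_zero.2 h6
        positivity
      nlinarith [sq_nonneg (x.1 - y.1)]
  exact Int.le_of_dvd h4 h2

/-- **COUNT**: points of one class in a tilted rectangle. `e` is a nonzero real vector. -/
theorem count_rect {R : ℤ} {M : ℕ} (hM : (M : ℤ) ∣ R ^ 2 + 1) (e1 e2 : ℝ)
    (he : 0 < e1 ^ 2 + e2 ^ 2) {A B s : ℝ} (hs : 0 < s) (hsM : 2 * s ^ 2 ≤ M) (hA : 0 ≤ A)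
    (hB : 0 ≤ B) (S : Finset (ℤ × ℤ)) (c : ℤ) (hc : ∀ z ∈ S, res R M z = c)
    (h1 : ∀ z ∈ S, |(z.1 : ℝ) * e1 + z.2 * e2| ≤ A * Real.sqrt (e1 ^ 2 + e2 ^ 2))
    (h2 : ∀ z ∈ S, |(z.1 : ℝ) * e2 - z.2 * e1| ≤ B * Real.sqrt (e1 ^ 2 + e2 ^ 2)) :
    (S.card : ℝ) ≤ (2 * A / s + 2) * (2 * B / s + 2) := by
  classical
  set E : ℝ := e1 ^ 2 + e2 ^ 2 with hE
  set rE : ℝ := Real.sqrt E with hrE
  have hrE0 : 0 < rE := Real.sqrt_pos.2 he
  have hrE2 : rE ^ 2 = E := Real.sq_sqrt he.le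
  set a : ℤ × ℤ → ℝ := fun z => ((z.1 : ℝ) * e1 + z.2 * e2) / rE with ha
  set b : ℤ × ℤ → ℝ := fun z => ((z.1 : ℝ) * e2 - z.2 * e1) / rE with hb
  have haA : ∀ z ∈ S, |a z| ≤ A := by
    intro z hz
    rw [ha]
    simp only
    rw [abs_div, abs_of_pos hrE0, div_le_iff₀ hrE0]
    exact h1 z hz
  have hbB : ∀ z ∈ S, |b z| ≤ B := by
    intro z hz
    rw [hb]
    simp only
    rw [abs_div, abs_of_pos hrE0, div_le_iff₀ hrE0]
    exact h2 z hz
  have hab : ∀ x y : ℤ × ℤ, (a x - a y) ^ 2 + (b x - b y) ^ 2 =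
      ((x.1 : ℝ) - y.1) ^ 2 + ((x.2 : ℝ) - y.2) ^ 2 := by
    intro x y
    rw [ha, hb]
    simp only
    rw [← sub_div, ← sub_div, div_pow, div_pow, ← add_div, hrE2, div_eq_iff he.ne', hE]
    ring
  set φ : ℤ × ℤ → ℤ × ℤ := fun z => (⌊a z / s⌋, ⌊b z / s⌋) with hφ
  have hinj : Set.InjOn φ (S : Set (ℤ × ℤ)) := by
    intro x hx y hy hxy
    by_contra hne
    have h3 := res_sep hM hne (by rw [hc x hx, hc y hy])
    have h4 : (M : ℝ) ≤ ((x.1 : ℝ) - y.1) ^ 2 + ((x.2 : ℝ) - y.2) ^ 2 := by exact_mod_cast h3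
    rw [← hab] at h4
    have h5 : ⌊a x / s⌋ = ⌊a y / s⌋ := congrArg Prod.fst hxy
    have h6 : ⌊b x / s⌋ = ⌊b y / s⌋ := congrArg Prod.snd hxy
    have h7 := Int.abs_sub_lt_one_of_floor_eq_floor h5
    have h8 := Int.abs_sub_lt_one_of_floor_eq_floor h6
    rw [← sub_div, abs_div, abs_of_pos hs, div_lt_one hs] at h7 h8
    have h9 : (a x - a y) ^ 2 < s ^ 2 := by
      rw [← sq_abs]; exact pow_lt_pow_left₀ h7 (abs_nonneg _) (by norm_num)
    have h10 : (b x - b y) ^ 2 < s ^ 2 := by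
      rw [← sq_abs]; exact pow_lt_pow_left₀ h8 (abs_nonneg _) (by norm_num)
    linarith
  have hmaps : ∀ z ∈ S, φ z ∈ Finset.Icc ⌊-A / s⌋ ⌊A / s⌋ ×ˢ Finset.Icc ⌊-B / s⌋ ⌊B / s⌋ := by
    intro z hz
    have h3 := abs_le.1 (haA z hz)
    have h4 := abs_le.1 (hbB z hz)
    rw [Finset.mem_product, Finset.mem_Icc, Finset.mem_Icc]
    refine ⟨⟨?_, ?_⟩, ?_, ?_⟩
    · exact Int.floor_le_floor (by gcongr; exact h3.1)
    · exact Int.floor_le_floor (by gcongr; exact h3.2)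
    · exact Int.floor_le_floor (by gcongr; exact h4.1)
    · exact Int.floor_le_floor (by gcongr; exact h4.2)
  have hcard := Finset.card_le_card_of_injOn φ hmaps hinj
  rw [Finset.card_product] at hcard
  have key : ∀ T : ℝ, 0 ≤ T → ((Finset.Icc ⌊-T / s⌋ ⌊T / s⌋).card : ℝ) ≤ 2 * T / s + 2 := by
    intro T hT
    rw [Int.card_Icc]
    have h3 : -T / s - 1 < ⌊-T / s⌋ := Int.sub_one_lt_floor _
    have h4 : (⌊T / s⌋ : ℝ) ≤ T / s := Int.floor_le _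
    have h5 : ⌊-T / s⌋ ≤ ⌊T / s⌋ := Int.floor_le_floor (by gcongr; linarith)
    have h6 : ((⌊T / s⌋ + 1 - ⌊-T / s⌋).toNat : ℤ) = ⌊T / s⌋ + 1 - ⌊-T / s⌋ :=
      Int.toNat_of_nonneg (by omega)
    have h7 : ((⌊T / s⌋ + 1 - ⌊-T / s⌋).toNat : ℝ) = (⌊T / s⌋ : ℝ) + 1 - ⌊-T / s⌋ := by
      exact_mod_cast h6
    rw [h7]
    have h8 : -T / s = -(T / s) := by ring
    have h9 : 2 * T / s = 2 * (T / s) := by ring
    rw [h8] at h3
    rw [h8, h9]
    linarith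
  calc (S.card : ℝ) ≤ (((Finset.Icc ⌊-A / s⌋ ⌊A / s⌋).card *
        (Finset.Icc ⌊-B / s⌋ ⌊B / s⌋).card : ℕ) : ℝ) := by exact_mod_cast hcard
    _ = ((Finset.Icc ⌊-A / s⌋ ⌊A / s⌋).card : ℝ) * ((Finset.Icc ⌊-B / s⌋ ⌊B / s⌋).card : ℝ) := by
        push_cast; rfl
    _ ≤ _ := mul_le_mul (key A hA) (key B hB) (Nat.cast_nonneg _) (by positivity)

/-- the form of the tile lemma used here -/
def Tile : Prop := ∀ {D : ℕ} {g : ℕ → ℤ × ℤ} (s t : ℕ)
  (_ : ∀ n, s ≤ n → n < t → |(g (n + 1)).1 - (g n).1| ≤ D ∧ |(g (n + 1)).2 - (g n).2| ≤ D)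
  {i i' j j' : ℕ} (_ : i ∈ Finset.Icc s t) (_ : i' ∈ Finset.Icc s t)
  (_ : j ∈ Finset.Icc s t) (_ : j' ∈ Finset.Icc s t) (Δ : Finset (ℤ × ℤ))
  (_ : ∀ k ∈ Finset.Icc s t, ∀ l ∈ Finset.Icc s t, g l - g k ∈ Δ),
  |((g i').1 - (g i).1) * ((g j').2 - (g j).2) - ((g i').2 - (g i).2) * ((g j').1 - (g j).1)|
    ≤ (2 * D + 1) ^ 2 * (Δ.card : ℤ)

/-- **STRIP.** A window all of whose differences are popular modulo one of the blocks is a thin
strip around its chord. -/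
theorem strip (tile : Tile) {D : ℕ} {g : ℕ → ℤ × ℤ} {s t : ℕ} (hst : s ≤ t)
    (hstep : ∀ n, s ≤ n → n < t →
      |(g (n + 1)).1 - (g n).1| ≤ D ∧ |(g (n + 1)).2 - (g n).2| ≤ D)
    {R : ℤ} {nb : ℕ} {M : Fin nb → ℕ} (hM0 : ∀ b, 0 < M b) (hR : ∀ b, (M b : ℤ) ∣ R ^ 2 + 1)
    {P : Fin nb → Finset ℤ}
    (hpop : ∀ k ∈ Finset.Icc s t, ∀ l ∈ Finset.Icc s t, ∃ b, res R (M b) (g l - g k) ∈ P b)
    {Mx : ℕ} (hMx : ∀ b, M b ≤ Mx) (hMe : (Mx : ℤ) ≤ nm (g t - g s))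
    (hlen : ∀ k ∈ Finset.Icc s t, ∀ l ∈ Finset.Icc s t, nm (g l - g k) ≤ 25 * nm (g t - g s))
    (hsmall : 640 * (2 * (D : ℝ) + 1) ^ 2 * ∑ b, ((P b).card : ℝ) / M b < 1) :
    ∀ k ∈ Finset.Icc s t, ∀ l ∈ Finset.Icc s t,
      (cr (g t - g s) (g l - g k)) ^ 2 ≤ Mx * nm (g t - g s) := by
  classical
  have hsm : s ∈ Finset.Icc s t := Finset.mem_Icc.2 ⟨le_rfl, hst⟩
  have htm : t ∈ Finset.Icc s t := Finset.mem_Icc.2 ⟨hst, le_rfl⟩
  set e : ℤ × ℤ := g t - g s with he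
  set Δ : Finset (ℤ × ℤ) := (Finset.Icc s t ×ˢ Finset.Icc s t).image (fun p => g p.2 - g p.1)
    with hΔ
  have hΔm : ∀ k ∈ Finset.Icc s t, ∀ l ∈ Finset.Icc s t, g l - g k ∈ Δ := fun k hk l hl =>
    Finset.mem_image.2 ⟨(k, l), Finset.mem_product.2 ⟨hk, hl⟩, rfl⟩
  have hΔne : Δ.Nonempty := ⟨_, hΔm s hsm s hsm⟩
  obtain ⟨h0, hh0, hmax⟩ := Finset.exists_max_image Δ (fun h => (cr e h) ^ 2) hΔne
  suffices hmain : (cr e h0) ^ 2 ≤ Mx * nm e by
    intro k hk l hl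
    exact (hmax _ (hΔm k hk l hl)).trans hmain
  by_contra hcon
  push Not at hcon
  obtain ⟨⟨k0, l0⟩, hkl, hkl0⟩ := Finset.mem_image.1 hh0
  obtain ⟨hk0, hl0⟩ := Finset.mem_product.1 hkl
  simp only at hk0 hl0 hkl0
  -- positivity
  obtain ⟨b0, hb0⟩ := hpop s hsm s hsm
  have hMx1 : 1 ≤ Mx := (hM0 b0).trans_le (hMx b0)
  have hE1 : (1 : ℤ) ≤ nm e := le_trans (by exact_mod_cast hMx1) hMe
  set E : ℝ := (e.1 : ℝ) ^ 2 + (e.2 : ℝ) ^ 2 with hE
  have hEnm : ((nm e : ℤ) : ℝ) = E := by simp [nm, hE]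
  have hE1' : (1 : ℝ) ≤ E := by rw [← hEnm]; exact_mod_cast hE1
  have hE0 : 0 < E := by linarith
  have hMxE : (Mx : ℝ) ≤ E := by rw [← hEnm]; exact_mod_cast hMe
  set rE : ℝ := Real.sqrt E with hrE
  have hrE0 : 0 < rE := Real.sqrt_pos.2 hE0
  have hrE2 : rE ^ 2 = E := Real.sq_sqrt hE0.le
  have hMx0 : (0 : ℝ) < Mx := by exact_mod_cast hMx1
  set w : ℝ := |(cr e h0 : ℝ)| / rE with hw
  have hwE : w * rE = |(cr e h0 : ℝ)| := by rw [hw]; field_simp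
  have hw0 : 0 ≤ w := by positivity
  have hw2 : (Mx : ℝ) < w ^ 2 := by
    have h1 : ((Mx : ℤ) : ℝ) * ((nm e : ℤ) : ℝ) < ((cr e h0 : ℤ) : ℝ) ^ 2 := by exact_mod_cast hcon
    rw [hEnm, ← sq_abs, ← hwE, mul_pow, hrE2] at h1
    push_cast at h1
    exact lt_of_mul_lt_mul_right h1 hE0.le
  have hwpos : 0 < w := by
    rcases hw0.lt_or_eq with h | h
    · exact h
    · rw [← h] at hw2
      norm_num at hw2
      linarith
  -- every class has few elements in `Δ`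
  have hclass : ∀ b : Fin nb, ∀ c : ℤ,
      ((Δ.filter (fun h => res R (M b) h = c)).card : ℝ) ≤ 160 * (rE * w) / M b := by
    intro b c
    have hMb : (0 : ℝ) < M b := by exact_mod_cast hM0 b
    have hMbx : (M b : ℝ) ≤ Mx := by exact_mod_cast hMx b
    set sb : ℝ := Real.sqrt ((M b : ℝ) / 2) with hsb
    have hsb0 : 0 < sb := Real.sqrt_pos.2 (by positivity)
    have hsb2 : sb ^ 2 = (M b : ℝ) / 2 := Real.sq_sqrt (by positivity)
    have hAs : sb ≤ 5 * rE := by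
      have h1 : sb ^ 2 ≤ (5 * rE) ^ 2 := by
        rw [mul_pow, hrE2, hsb2]
        linarith
      exact le_of_sq_le_sq h1 (by positivity)
    have hws : sb ≤ w := by
      have h1 : sb ^ 2 ≤ w ^ 2 := by
        rw [hsb2]
        linarith
      exact le_of_sq_le_sq h1 hw0
    have hcount := count_rect (hR b) (e.1 : ℝ) (e.2 : ℝ) (by rw [← hE]; exact hE0)
      (A := 5 * rE) (B := w) hsb0 (by rw [hsb2]; linarith) (by positivity) hw0
      (Δ.filter (fun h => res R (M b) h = c)) c (fun z hz => (Finset.mem_filter.1 hz).2) (by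
        intro z hz
        obtain ⟨hz1, _⟩ := Finset.mem_filter.1 hz
        obtain ⟨⟨k, l⟩, hkl1, rfl⟩ := Finset.mem_image.1 hz1
        obtain ⟨hk, hl⟩ := Finset.mem_product.1 hkl1
        have h1 := hlen k hk l hl
        simp only at hk hl h1 ⊢
        set z : ℤ × ℤ := g l - g k with hz
        rw [← hE, ← hrE]
        have h2 : (((nm z : ℤ)) : ℝ) ≤ 25 * ((nm e : ℤ) : ℝ) := by exact_mod_cast h1
        rw [hEnm] at h2
        have h3 : ((nm z : ℤ) : ℝ) = (z.1 : ℝ) ^ 2 + (z.2 : ℝ) ^ 2 := by simp [nm]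
        rw [h3] at h2
        have h4 : |(z.1 : ℝ) * e.1 + z.2 * e.2| ^ 2 ≤ (5 * rE * rE) ^ 2 := by
          rw [sq_abs]
          have h5 : ((z.1 : ℝ) * e.1 + z.2 * e.2) ^ 2 + ((z.1 : ℝ) * e.2 - z.2 * e.1) ^ 2
              = ((z.1 : ℝ) ^ 2 + (z.2 : ℝ) ^ 2) * E := by rw [hE]; ring
          have h6 : (5 * rE * rE) ^ 2 = 25 * E * E := by
            calc (5 * rE * rE) ^ 2 = 25 * (rE ^ 2) * (rE ^ 2) := by ring
              _ = _ := by rw [hrE2]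
          rw [h6]
          have h7 : ((z.1 : ℝ) ^ 2 + (z.2 : ℝ) ^ 2) * E ≤ 25 * E * E :=
            mul_le_mul_of_nonneg_right h2 hE0.le
          nlinarith [sq_nonneg ((z.1 : ℝ) * e.2 - z.2 * e.1)]
        exact le_of_sq_le_sq h4 (by positivity)) (by
        intro z hz
        obtain ⟨hz1, _⟩ := Finset.mem_filter.1 hz
        rw [← hE, ← hrE, hwE]
        have h1 := hmax z hz1
        have h2 : ((cr e z : ℤ) : ℝ) ^ 2 ≤ ((cr e h0 : ℤ) : ℝ) ^ 2 := by exact_mod_cast h1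
        have h3 : |((cr e z : ℤ) : ℝ)| ≤ |((cr e h0 : ℤ) : ℝ)| := sq_le_sq.1 h2
        refine le_trans (le_of_eq ?_) h3
        rw [← abs_neg]
        congr 1
        simp only [cr]
        push_cast
        ring)
    refine hcount.trans ?_
    have h1 : 2 * (5 * rE) / sb + 2 ≤ 4 * (5 * rE) / sb := by
      have h2 : 2 ≤ 2 * (5 * rE) / sb := by
        rw [le_div_iff₀ hsb0]; linarith
      have h3 : 4 * (5 * rE) / sb = 2 * (5 * rE) / sb + 2 * (5 * rE) / sb := by ring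
      rw [h3]; linarith
    have h4 : 2 * w / sb + 2 ≤ 4 * w / sb := by
      have h2 : 2 ≤ 2 * w / sb := by
        rw [le_div_iff₀ hsb0]; linarith
      have h3 : 4 * w / sb = 2 * w / sb + 2 * w / sb := by ring
      rw [h3]; linarith
    refine (mul_le_mul h1 h4 (by positivity) (by positivity)).trans (le_of_eq ?_)
    rw [div_mul_div_comm, ← sq, hsb2]
    field_simp
    ring
  -- the total number of differences
  have hcardΔ : (Δ.card : ℝ) ≤ 160 * (rE * w) * ∑ b, ((P b).card : ℝ) / M b := by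
    have hsub : Δ ⊆ Finset.univ.biUnion (fun b : Fin nb =>
        (P b).biUnion (fun c => Δ.filter (fun h => res R (M b) h = c))) := by
      intro h hh
      obtain ⟨⟨k, l⟩, hkl1, rfl⟩ := Finset.mem_image.1 hh
      obtain ⟨hk, hl⟩ := Finset.mem_product.1 hkl1
      obtain ⟨b, hb⟩ := hpop k hk l hl
      exact Finset.mem_biUnion.2 ⟨b, Finset.mem_univ _, Finset.mem_biUnion.2
        ⟨_, hb, Finset.mem_filter.2 ⟨hh, rfl⟩⟩⟩
    have h1 : (Δ.card : ℝ) ≤ ∑ b : Fin nb, ∑ c ∈ P b,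
        ((Δ.filter (fun h => res R (M b) h = c)).card : ℝ) := by
      have h2 := (Finset.card_le_card hsub).trans Finset.card_biUnion_le
      have h3 : (Δ.card : ℝ) ≤ ((∑ b : Fin nb, ((P b).biUnion
          (fun c => Δ.filter (fun h => res R (M b) h = c))).card : ℕ) : ℝ) := by exact_mod_cast h2
      refine h3.trans ?_
      push_cast
      refine Finset.sum_le_sum fun b _ => ?_
      have h4 : (((P b).biUnion (fun c => Δ.filter (fun h => res R (M b) h = c))).card : ℝ) ≤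
          ((∑ c ∈ P b, (Δ.filter (fun h => res R (M b) h = c)).card : ℕ) : ℝ) := by
        exact_mod_cast Finset.card_biUnion_le
      refine h4.trans (le_of_eq ?_)
      push_cast
      rfl
    refine h1.trans ?_
    rw [Finset.mul_sum]
    refine Finset.sum_le_sum fun b _ => ?_
    calc ∑ c ∈ P b, ((Δ.filter (fun h => res R (M b) h = c)).card : ℝ)
        ≤ ∑ _c ∈ P b, 160 * (rE * w) / M b := Finset.sum_le_sum fun c _ => hclass b c
      _ = 160 * (rE * w) * (((P b).card : ℝ) / M b) := by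
          rw [Finset.sum_const, nsmul_eq_mul]; ring
  -- tile
  have htile := tile s t hstep (i := s) (i' := t) (j := k0) (j' := l0) hsm htm hk0 hl0 Δ hΔm
  have htile' : |((cr e h0 : ℤ) : ℝ)| ≤ (2 * (D : ℝ) + 1) ^ 2 * (Δ.card : ℝ) := by
    have h1 : |cr e h0| ≤ (2 * (D : ℤ) + 1) ^ 2 * (Δ.card : ℤ) := by
      refine le_trans (le_of_eq ?_) htile
      congr 1
      rw [← hkl0, he]
      simp only [cr, Prod.fst_sub, Prod.snd_sub]
    have h2 : ((|cr e h0| : ℤ) : ℝ) ≤ (((2 * (D : ℤ) + 1) ^ 2 * (Δ.card : ℤ) : ℤ) : ℝ) := by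
      exact_mod_cast h1
    push_cast at h2
    exact h2
  rw [← hwE] at htile'
  have hrw : 0 < rE * w := by positivity
  have hfin : w * rE ≤ (w * rE) * (160 * (2 * (D : ℝ) + 1) ^ 2 * ∑ b, ((P b).card : ℝ) / M b) := by
    refine htile'.trans ?_
    refine (mul_le_mul_of_nonneg_left hcardΔ (by positivity)).trans (le_of_eq ?_)
    ring
  have hpos : 0 ≤ (2 * (D : ℝ) + 1) ^ 2 * ∑ b, ((P b).card : ℝ) / M b :=
    mul_nonneg (by positivity) (Finset.sum_nonneg fun b _ => by positivity)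
  have h1 : 160 * (2 * (D : ℝ) + 1) ^ 2 * ∑ b, ((P b).card : ℝ) / M b < 1 := by
    nlinarith
  have h2 : (w * rE) * (160 * (2 * (D : ℝ) + 1) ^ 2 * ∑ b, ((P b).card : ℝ) / M b) <
      (w * rE) * 1 := mul_lt_mul_of_pos_left h1 (by linarith [mul_comm w rE])
  linarith

end Vale.Agent.P015.H518
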